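import Mathlib
import Vale.Agent.P208.Neg.Main

/-! # P208: the Lang–Plaut question has a negative answer -/

namespace Vale.Agent.Results.P208.LangPlautDisproof

open Vale.Agent.P208

/-- A doubling subset of `ℓ₂` with no bi-Lipschitz embedding into any `ℝ^k`, and finite sets with one
absolute doubling constant needing arbitrarily large dimension or distortion. -/
theorem result :
    (∃ (X : Set (lp (fun _ : ℕ => ℝ) 2)) (m : ℕ), Dbl X m ∧ ∀ k D, ¬ Emb X k D) ∧
    ∃ m : ℕ, ∀ k D, ∃ F : Finset (lp (fun _ : ℕ => ℝ) 2),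
      Dbl (↑F : Set (lp (fun _ : ℕ => ℝ) 2)) m ∧ ¬ Emb (↑F : Set (lp (fun _ : ℕ => ℝ) 2)) k D := by
  refine ⟨Neg.disproof, Neg.finalBound, fun k D => ?_⟩
  obtain ⟨F, h1, h2⟩ := Neg.hard_finite Neg.l2Frame k (le_max_left 1 D)
  exact ⟨F, h1, fun h => h2 (h.mono (Nat.le_add_right k 2) (le_max_right 1 D))⟩

end Vale.Agent.Results.P208.LangPlautDisproof
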